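import Vale.Agent.P284Z.L.Spec
import Vale.Agent.P284Z.K.Glue
import Vale.Agent.P284Z.F0.Levi
import Vale.Agent.P284Z.F0.Cov.Ch
import Vale.Agent.P268.Hol

/-!
# P284Z, block L7a: local calculus of basic plurisubharmonic functions
-/

set_option linter.all false

open scoped ContDiff Topology ComplexOrder ComplexConjugate
open Filter Set Function Metric

noncomputable section

namespace Vale.Agent.P284Z.L.S7a

open Vale.Agent.P272.K J Real K

theorem G'_sm : ContDiff ℝ ∞ (deriv G) := (contDiff_infty_iff_deriv.1 G_sm).2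

theorem G'_zero {t : ℝ} (h : t ≤ -1) : deriv G t = 0 := by
  rw [deriv_G]
  exact smoothTransition.zero_of_nonpos (by linarith [G₀_one.1])

theorem G'_one {t : ℝ} (h : 1 ≤ t) : deriv G t = 1 := by
  rw [deriv_G]
  exact smoothTransition.one_of_one_le (by linarith [G₀_one.2])

theorem G''_zero {t : ℝ} (h : t ∉ Icc (-1 : ℝ) 1) : deriv (deriv G) t = 0 := by
  rcases not_and_or.1 h with h | h
  · exact (EventuallyEq.deriv_eq ((gt_mem_nhds (not_le.1 h)).mono fun _ e =>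
      G'_zero e.le)).trans (deriv_const _ _)
  · exact (EventuallyEq.deriv_eq ((lt_mem_nhds (not_le.1 h)).mono fun _ e =>
      G'_one e.le)).trans (deriv_const _ _)

theorem G''_bd : ∃ A : ℝ, 0 ≤ A ∧ ∀ t, deriv (deriv G) t ≤ A := by
  obtain ⟨A, hA⟩ := (isCompact_Icc (a := (-1 : ℝ)) (b := 1)).exists_bound_of_continuousOn
    (G'_sm.continuous_deriv (by simp)).continuousOn
  refine ⟨|A|, abs_nonneg _, fun t => ?_⟩
  by_cases h : t ∈ Icc (-1 : ℝ) 1
  · exact (le_abs_self _).trans ((hA t h).trans (le_abs_self _))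
  · exact (G''_zero h).trans_le (abs_nonneg _)

section chart
variable {n : ℕ} {a b r : Cm n → ℝ} {h : Cm n → ℂ} {z : Cm n}

theorem bb_eq {u : Cm n → ℝ} (hu : ContDiffAt ℝ ∞ u z) (hh : AnalyticAt ℂ h z) :
    bb (fun w => ((deriv G (u w) : ℝ) : ℂ) * h w) z =
      ((deriv (deriv G) (u z) ^ 2 * ‖h z‖ ^ 2 : ℝ) : ℂ) • P284.H650.gg u u z := by
  have h1 := hu.differentiableAt (by simp)
  have h2 := G'_sm.differentiable (by simp) (u z)
  have e : ∀ k, dzb k (fun w => ((deriv G (u w) : ℝ) : ℂ) * h w) z =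
      ((deriv (deriv G) (u z) : ℝ) : ℂ) * dzb k (fun w => (u w : ℂ)) z * h z := fun k => by
    rw [C2.dzb_mul k (C2.differentiableAt_ofReal (h2.fun_comp' z h1))
      (hh.differentiableAt.restrictScalars ℝ), INT.dzb_of_holo hh.differentiableAt,
      AMP.dzb_real_comp h2 h1, mul_zero, add_zero]
  ext j k
  rw [gg_eq]
  simp only [bb, AMP.gm, Matrix.of_apply, Matrix.smul_apply, smul_eq_mul, e, C2.dz_real j h1,
    map_mul, Complex.conj_ofReal, Complex.ofReal_mul, Complex.ofReal_pow, ← Complex.mul_conj']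
  ring

/-- the positivity used for the estimate of the right hand side -/
theorem key {l : ℝ} (hl : 0 < l) (ha : SP a z) (hb : SP b z) (hr : SP r z)
    (hh : AnalyticAt ℂ h z) :
    (((deriv (deriv G) (b z - a z) * ‖h z‖ ^ 2 / l : ℝ) : ℂ) •
      cHess (fun w => l * (a w + G (b w - a w)) + r w) z -
        bb (fun w => ((deriv G (b w - a w) : ℝ) : ℂ) * h w) z).PosSemidef := by
  have hd := hb.sm.sub ha.sm
  have hG : ContDiffAt ℝ ∞ (fun w => G (b w - a w)) z := G_sm.contDiffAt.comp z hd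
  rw [bb_eq hd hh, C2.cHess_add (two (contDiffAt_const.mul (ha.sm.add hG))) (two hr.sm),
    C2.cHess_const_mul l (two (ha.sm.add hG)), C2.cHess_add (two ha.sm) (two hG),
    cHess_comp' (f := fun w => b w - a w) (G_sm.of_le two_le).contDiffAt (two hd),
    C2.cHess_sub (two hb.sm) (two ha.sm)]
  have h0 := mul_nonneg (G''_nonneg (b z - a z)) (sq_nonneg ‖h z‖)
  have h1 := (psd_smul ((psd_smul ha.psd (sub_nonneg.2 (G'_le (b z - a z)))).add
    (psd_smul hb.psd (G'_nonneg (b z - a z)))) h0).add (psd_smul hr.psd (div_nonneg h0 hl.le))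
  refine (congrArg Matrix.PosSemidef ?_).mp h1
  have : (l : ℂ) ≠ 0 := Complex.ofReal_ne_zero.2 hl.ne'
  push_cast
  match_scalars <;> field_simp <;> ring

theorem sp_nsq (jb : JB) (t₀ t : Cm n) : SP (fun w => nsq (w - t₀)) t :=
  ⟨(sm_nsq t₀).contDiffAt, jb.hess_nsq n t₀ t ▸ Matrix.PosSemidef.one⟩

theorem sp_fs (t₀ t : Cm n) {ε : ℝ} (hε : 0 < ε) : SP (fun w => log (nsq (w - t₀) + ε)) t := by
  have h0 := add_pos_of_nonneg_of_pos (nsq_nonneg (t - t₀)) hε
  have h1 : ContDiffAt ℝ ∞ (fun w => nsq (w - t₀) + ε) t :=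
    (sm_nsq t₀).contDiffAt.add contDiffAt_const
  have h2 : LPsh (fun w => nsq (w - t₀) + ε) univ :=
    (lpsh_sum Finset.univ fun b _ => (lpsh_norm isOpen_univ (F := fun w : Cm n => (w - t₀) b)
      (by fun_prop)).pow 2).add (lpsh_const hε.le _)
  exact ⟨h1.log h0.ne', h2.cHess_psd univ_mem h0 (two h1)⟩

end chart

variable {n p : ℕ} {Γ E : Type} [Group Γ] [TopologicalSpace E] [MulAction Γ E]

/-- `f` is a function of `s` near `y` -/
def Fb {α : Type} (s : E → Cm p) (f : E → α) (y : E) : Prop :=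
  ∀ᶠ q : E × E in 𝓝 (y, y), s q.1 = s q.2 → f q.1 = f q.2

section fb
variable {α β δ : Type} {s : E → Cm p} {f g : E → α} {f' : E → β} {y : E}

theorem Fb.congr (h : Fb s f y) (e : g =ᶠ[𝓝 y] f) : Fb s g y := by
  filter_upwards [h, e.prod_nhds e] with q h1 h2 h3
  rw [h2.1, h2.2, h1 h3]

theorem Fb.map₂ (h : Fb s f y) (h' : Fb s f' y) (φ : α → β → δ) :
    Fb s (fun x => φ (f x) (f' x)) y := by
  filter_upwards [h, h'] with q h1 h2 h3
  rw [h1 h3, h2 h3]

theorem fb_comp (φ : Cm p → α) : Fb s (fun x => φ (s x)) y :=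
  Eventually.of_forall fun _ h => congrArg φ h

end fb

/-- smooth, plurisubharmonic and a function of `s` near `y` -/
structure Gd (C : Cov n Γ E) (s : E → Cm p) (f : E → ℝ) (y : E) : Prop where
  sp : ∀ γ a, ∀ z ∈ C.B 4 a, C.pt γ a z = y → SP (fun w => f (C.pt γ a w)) z
  fb : Fb s f y

variable {C : Cov n Γ E} {s : E → Cm p} {f g a b : E → ℝ} {y : E} {O U : Set E}

theorem ev_ch {Q : E → Prop} {γ : Γ} {i : C.I} {z : Cm n} (hz : z ∈ C.B 4 i)
    (e : C.pt γ i z = y) (h : ∀ᶠ x in 𝓝 y, Q x) : ∀ᶠ w in 𝓝 z, Q (C.pt γ i w) :=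
  (C.ev_pt hz γ).1 (e ▸ h)

theorem Gd.congr (h : Gd C s f y) (e : g =ᶠ[𝓝 y] f) : Gd C s g y :=
  ⟨fun γ i z hz e' => (h.sp γ i z hz e').congr (ev_ch hz e' e), h.fb.congr e⟩

theorem Gd.sm (h : Gd C s f y) : C.SmAt f y := fun γ i z hz e => (h.sp γ i z hz e).sm

theorem cont_of_sm (h : C.SmAt f y) : ContinuousAt f y := by
  obtain ⟨γ, i, z, hz, rfl⟩ := C.exists_pt y
  have := (h γ i z (C.B14 hz) rfl).continuousAt
  rw [ContinuousAt, ← C.map_pt' (C.B14 hz) γ]
  exact this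

theorem Gd.cont (h : Gd C s f y) : ContinuousAt f y := cont_of_sm h.sm

theorem Gd.add (h : Gd C s f y) (h' : Gd C s g y) : Gd C s (fun x => f x + g x) y :=
  ⟨fun γ i z hz e => (h.sp γ i z hz e).add (h'.sp γ i z hz e), h.fb.map₂ h'.fb (· + ·)⟩

theorem Gd.const_mul (h : Gd C s f y) {c : ℝ} (hc : 0 ≤ c) : Gd C s (fun x => c * f x) y :=
  ⟨fun γ i z hz e => (h.sp γ i z hz e).const_mul hc, h.fb.map₂ h.fb fun t _ => c * t⟩

theorem Gd.add_const (h : Gd C s f y) (c : ℝ) : Gd C s (fun x => f x + c) y :=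
  ⟨fun γ i z hz e => (h.sp γ i z hz e).add_const c, h.fb.map₂ h.fb fun t _ => t + c⟩

theorem Gd.rm (ha : Gd C s a y) (hb : Gd C s b y) : Gd C s (fun x => a x + G (b x - a x)) y :=
  ⟨fun γ i z hz e => (ha.sp γ i z hz e).rm (hb.sp γ i z hz e),
    ha.fb.map₂ hb.fb fun t t' => t + G (t' - t)⟩

theorem gd_gl (hU : IsOpen U) (ha : Gd C s a y) (hb : y ∈ U → Gd C s b y)
    (hz : y ∉ U → ∀ᶠ w in 𝓝 y, w ∈ U → b w ≤ a w - 1) : Gd C s (gl U a b) y := by
  by_cases h : y ∈ U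
  · exact (ha.rm (hb h)).congr (by filter_upwards [hU.mem_nhds h] with w hw using gl_of_mem hw)
  · exact ha.congr ((hz h).mono fun w hw => gl_left hw)

theorem gd_comp (jb : JB) (hs : Sub C s O) (hy : y ∈ O) {u : Cm p → ℝ} (hu : SP u (s y)) :
    Gd C s (fun x => u (s x)) y :=
  ⟨fun γ i z hz e => SP.comp jb (s := fun w => s (C.pt γ i w)) (e ▸ hu)
    (hs.hol γ i z hz (e ▸ hy)), fb_comp u⟩

theorem gd_log (h : Wt C s O f) (hy : y ∈ O) (h0 : 0 < f y) : Gd C s (fun x => log (f x)) y :=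
  ⟨fun γ i z hz e => ⟨(h.sm y hy h0 γ i z hz e).log (e ▸ h0.ne'),
    h.psd γ i z hz (e ▸ ⟨hy, h0⟩)⟩, Fb.map₂ (h.fib y hy) (h.fib y hy) fun t _ => log t⟩

/-- the regularised maximum of `a` and `log f` -/
def tr (O : Set E) (a f : E → ℝ) : E → ℝ := gl {y ∈ O | 0 < f y} a fun y => log (f y)

theorem gd_tr (hO : IsOpen O) (h : Wt C s O f) (hy : y ∈ O) (ha : Gd C s a y) :
    Gd C s (tr O a f) y := by
  refine gd_gl (h.cont.isOpen_inter_preimage hO isOpen_Ioi) ha (fun h' => gd_log h hy h'.2)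
    fun h' => ?_
  have h0 : f y < exp (a y - 1) := (not_lt.1 fun e => h' ⟨hy, e⟩).trans_lt (exp_pos _)
  filter_upwards [(h.cont.continuousAt (hO.mem_nhds hy)).eventually_lt
    (ha.cont.sub continuousAt_const).rexp h0] with w h1 h2
  exact (log_le_iff_le_exp h2.2).2 h1.le

theorem le_tr : a y ≤ tr O a f y := left_le_gl

theorem log_le_tr (hy : y ∈ O) (h : 0 < f y) : log (f y) ≤ tr O a f y :=
  right_le_gl (b := fun y => log (f y)) ⟨hy, h⟩

theorem tr_le {M : ℝ} (ha : a y ≤ M) (hf : 0 < f y → log (f y) ≤ M) : tr O a f y ≤ M + 1 :=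
  gl_le ha fun h => hf h.2

end Vale.Agent.P284Z.L.S7a
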