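import Vale.Agent.P284Z.L.S7a.Loc

/-!
# P284Z, block L7a: the glued weights
-/

set_option linter.all false

open scoped ContDiff Topology ComplexOrder ComplexConjugate
open Filter Set Function Metric

noncomputable section

namespace Vale.Agent.P284Z.L.S7a

open Vale.Agent.P272.K J Real K

/-- the regularisation parameter -/
def rh (j : ℕ) : ℝ := 1 / (j + 1)

theorem rh_pos (j : ℕ) : 0 < rh j := Nat.one_div_pos_of_nat

theorem rh_le (j : ℕ) : rh j ≤ 1 := div_le_one_of_le₀ (by simp) (by positivity)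

theorem rh_tend : Tendsto rh atTop (𝓝 0) := tendsto_one_div_add_atTop_nhds_zero_nat

variable {n p : ℕ} {Γ E : Type} [Group Γ] [TopologicalSpace E] [MulAction Γ E] {C : Cov n Γ E}
  {s : E → Cm p} {O Ω : Set E} {t₀ : Cm p} {R c K : ℝ} (W : WD C s O Ω t₀ R c K) (j : ℕ)

/-- the inner tube -/
def In : Set E := {y | y ∈ Ω ∧ s y ∈ ball t₀ W.R₂}

/-- the level of truncation -/
def el (y : E) : ℝ := log (W.r y) + c / 2 * log (rh j)

/-- the truncation of `log q` -/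
def Fq : E → ℝ := tr O (el W j) (W.q j)

/-- the truncation of `log w` -/
def Fw : E → ℝ := tr O (el W j) (W.w j)

/-- the logarithmic pole -/
def nu (_ : WD C s O Ω t₀ R c K) (j : ℕ) (y : E) : ℝ := c / 4 * log (nsq (s y - t₀) + rh j)

/-- a bound of `nu` -/
def S₀ : ℝ := c / 4 * (p * W.R₂ ^ 2)

/-- the inner weight -/
def Fi (y : E) : ℝ := 4 * Fq W j y + nu W j y + -(3 * log W.M + 5 + S₀ W)

/-- the glued weight -/
def Fm : E → ℝ := gl (In W) (Fw W j) (Fi W j)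

/-- the part of the weight which is defined everywhere -/
def Fr (μ : ℝ) (y : E) : ℝ := μ * Fq W j y + rh j * nsq (s y - t₀)

/-- the weight -/
def ps (l μ : ℝ) (y : E) : ℝ := l * Fm W j y + Fr W j μ y

/-- the cut-off of `Pf ∘ s` -/
def gc (Pf : Cm p → ℂ) : E → ℂ :=
  (In W).indicator fun y => ((deriv G (Fi W j y - Fw W j y) : ℝ) : ℂ) * Pf (s y)

/-- the bound of the right hand side -/
def La (l : ℝ) (Pf : Cm p → ℂ) : E → ℝ :=
  (In W).indicator fun y => deriv (deriv G) (Fi W j y - Fw W j y) * ‖Pf (s y)‖ ^ 2 / l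

/-- the level `j` is good -/
structure Gj : Prop where
  le : ∀ y ∈ O, W.w j y ≤ 2 * W.q j y
  pole : ∀ y ∈ Ω, s y ∈ ball t₀ W.R₂ → W.w j y ≤ W.M * ‖s y - t₀‖ ^ c
  shell : ∀ y ∈ Ω, s y ∈ ball t₀ W.R₂ → W.R₁ ≤ ‖s y - t₀‖ → W.q j y ^ 4 ≤ W.M * W.w j y

theorem ev_gj : ∀ᶠ j in atTop, Gj W j := by
  filter_upwards [W.w_le, W.pole, W.shell] with j h1 h2 h3 using ⟨h1, h2, h3⟩

theorem M_pos : 0 < W.M := one_pos.trans_le W.one_le

theorem logM : 0 ≤ log W.M := log_nonneg W.one_le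

theorem S₀_nonneg (hc : 0 < c) : 0 ≤ S₀ W := by
  unfold S₀
  positivity

variable {W j} {y : E}

theorem nsq_in (hy : y ∈ In W) : nsq (s y - t₀) ≤ p * W.R₂ ^ 2 :=
  (nsq_le _).trans (mul_le_mul_of_nonneg_left (pow_le_pow_left₀ (norm_nonneg _)
    (mem_ball_iff_norm.1 hy.2).le 2) p.cast_nonneg)

theorem n2_pos : 0 < nsq (s y - t₀) + rh j := add_pos_of_nonneg_of_pos (nsq_nonneg _) (rh_pos j)

theorem nu_le (hc : 0 < c) (hy : y ∈ In W) : nu W j y ≤ S₀ W :=
  mul_le_mul_of_nonneg_left (by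
    linarith [log_le_sub_one_of_pos (n2_pos (s := s) (t₀ := t₀) (y := y) (j := j)), rh_le j,
      nsq_in hy]) (by positivity)

theorem logr (hT : Tb s O Ω t₀ R) (hy : y ∈ In W) : |log (W.r y)| ≤ log W.M := by
  obtain ⟨h1, h2, -⟩ := W.bd y hy.1 hy.2
  refine abs_le.2 ⟨?_, log_le_log (W.r_pos y (hT.sub hy.1)) h2⟩
  rw [← log_inv]
  exact log_le_log (inv_pos.2 (M_pos W)) h1

theorem el_le (hc : 0 < c) (hT : Tb s O Ω t₀ R) (hy : y ∈ In W) : el W j y ≤ log W.M :=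
  add_le_of_nonpos_right (mul_nonpos_of_nonneg_of_nonpos (by positivity)
    (log_nonpos (rh_pos j).le (rh_le j))) |>.trans (abs_le.1 (logr hT hy)).2

theorem Fq_le (hc : 0 < c) (hT : Tb s O Ω t₀ R) (hy : y ∈ In W) : Fq W j y ≤ log W.M + 1 :=
  tr_le (el_le hc hT hy) fun h => log_le_log h ((W.bd y hy.1 hy.2).2.2 j)

theorem Fw_le (hc : 0 < c) (hT : Tb s O Ω t₀ R) (hj : Gj W j) (hy : y ∈ In W) :
    Fw W j y ≤ log W.M + 2 * nu W j y + 1 := by
  have h0 := n2_pos (s := s) (t₀ := t₀) (y := y) (j := j)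
  refine tr_le ?_ fun h => (log_le_iff_le_exp h).2 ((hj.pole y hy.1 hy.2).trans ?_)
  · have := mul_le_mul_of_nonneg_left (log_le_log (rh_pos j)
      (le_add_of_nonneg_left (nsq_nonneg (s y - t₀)))) (half_pos hc).le
    unfold el nu
    linarith [(abs_le.1 (logr hT hy)).2]
  · have h1 : ‖s y - t₀‖ ≤ exp (log (nsq (s y - t₀) + rh j) / 2) :=
      norm_le_of_nsq (exp_pos _).le (by
        rw [sq, ← exp_add, add_halves, exp_log h0]
        exact le_add_of_nonneg_right (rh_pos j).le)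
    rw [exp_add, exp_log (M_pos W)]
    refine mul_le_mul_of_nonneg_left ((rpow_le_rpow (norm_nonneg _) h1 hc.le).trans_eq ?_)
      (M_pos W).le
    rw [← exp_mul, nu]
    ring_nf

theorem Fw_le_Fq (hj : Gj W j) (hy : y ∈ O) : Fw W j y ≤ Fq W j y + 1 + 1 := by
  refine tr_le (le_tr.trans (le_add_of_nonneg_right zero_le_one)) fun h => ?_
  have h1 : 0 < W.q j y := by linarith [hj.le y hy]
  have h2 := log_le_log h (hj.le y hy)
  rw [log_mul two_ne_zero h1.ne'] at h2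
  have h3 : log (W.q j y) ≤ Fq W j y := log_le_tr hy h1
  linarith [log_le_sub_one_of_pos two_pos]

theorem shell (hc : 0 < c) (hT : Tb s O Ω t₀ R) (hj : Gj W j) (hy : y ∈ In W)
    (h : W.R₁ ≤ ‖s y - t₀‖) : Fi W j y ≤ Fw W j y - 1 := by
  have h1 : Fq W j y ≤ (Fw W j y + 3 * log W.M) / 4 + 1 := by
    refine tr_le ?_ fun h0 => ?_
    · have h2 : el W j y ≤ Fw W j y := le_tr
      linarith [el_le (j := j) hc hT hy]
    · have h2 := hj.shell y hy.1 hy.2 h
      have h3 : 0 < W.w j y := (mul_pos_iff_of_pos_left (M_pos W)).1 ((pow_pos h0 4).trans_le h2)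
      have h4 := log_le_log (pow_pos h0 4) h2
      have h5 : log (W.w j y) ≤ Fw W j y := log_le_tr (hT.sub hy.1) h3
      rw [log_pow, log_mul (M_pos W).ne' h3.ne'] at h4
      push_cast at h4
      linarith [logM W]
  unfold Fi
  linarith [nu_le (j := j) hc hy]

theorem in_open (hs : Sub C s O) (hT : Tb s O Ω t₀ R) : IsOpen (In W) :=
  ContinuousOn.isOpen_inter_preimage (fun _ h =>
    (Cov.HolOn.continuousAt C hs.hol (hT.sub h)).continuousWithinAt) hT.opn isOpen_ball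

theorem out (hc : 0 < c) (hs : Sub C s O) (hT : Tb s O Ω t₀ R) (hj : Gj W j) (hy : y ∈ O)
    (h : y ∉ In W) : ∀ᶠ w in 𝓝 y, w ∈ In W → Fi W j w ≤ Fw W j w - 1 := by
  have h1 : y ∉ closure {y' ∈ Ω | ‖s y' - t₀‖ ≤ W.R₁} := fun h1 => h
    ⟨hT.clos _ (W.R₁_lt.trans W.R₂_lt) y hy h1, mem_ball_iff_norm.2 (lt_of_le_of_lt
      (ContinuousWithinAt.closure_le (f := fun y => ‖s y - t₀‖) h1 ((Cov.HolOn.continuousAt C hs.hol hy).sub
        continuousAt_const).norm.continuousWithinAt continuousWithinAt_const fun _ e => e.2)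
      W.R₁_lt)⟩
  filter_upwards [isClosed_closure.isOpen_compl.mem_nhds h1] with w h2 h3
  exact shell hc hT hj h3 (le_of_not_ge fun e => h2 (subset_closure ⟨h3.1, e⟩))

theorem gd_el (hy : y ∈ O) : Gd C s (el W j) y := (gd_log W.r_wt hy (W.r_pos y hy)).add_const _

theorem gd_Fq (hs : Sub C s O) (hy : y ∈ O) : Gd C s (Fq W j) y :=
  gd_tr hs.opn (W.q_wt j) hy (gd_el hy)

theorem gd_Fw (hs : Sub C s O) (hy : y ∈ O) : Gd C s (Fw W j) y :=
  gd_tr hs.opn (W.w_wt j) hy (gd_el hy)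

theorem gd_Fi (jb : JB) (hc : 0 < c) (hs : Sub C s O) (hy : y ∈ O) : Gd C s (Fi W j) y :=
  (((gd_Fq hs hy).const_mul (by norm_num)).add ((gd_comp jb hs hy
    (sp_fs t₀ _ (rh_pos j))).const_mul (by positivity))).add_const _

theorem gd_Fr (jb : JB) (hs : Sub C s O) {μ : ℝ} (hμ : 0 ≤ μ) (hy : y ∈ O) :
    Gd C s (Fr W j μ) y :=
  ((gd_Fq hs hy).const_mul hμ).add ((gd_comp jb hs hy (sp_nsq jb t₀ _)).const_mul (rh_pos j).le)

theorem gd_Fm (jb : JB) (hc : 0 < c) (hs : Sub C s O) (hT : Tb s O Ω t₀ R) (hj : Gj W j)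
    (hy : y ∈ O) : Gd C s (Fm W j) y :=
  gd_gl (in_open hs hT) (gd_Fw hs hy) (fun _ => gd_Fi jb hc hs hy) (out hc hs hT hj hy)

variable {Pf : Cm p → ℂ} {l μ : ℝ}

theorem gc_in (hs : Sub C s O) (hT : Tb s O Ω t₀ R) (h : y ∈ In W) : gc W j Pf =ᶠ[𝓝 y]
    fun y => ((deriv G (Fi W j y - Fw W j y) : ℝ) : ℂ) * Pf (s y) := by
  filter_upwards [(in_open hs hT).mem_nhds h] with w hw using indicator_of_mem hw _

theorem gc_out (hc : 0 < c) (hs : Sub C s O) (hT : Tb s O Ω t₀ R) (hj : Gj W j) (hy : y ∈ O)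
    (h : y ∉ In W) : gc W j Pf =ᶠ[𝓝 y] fun _ => 0 := by
  filter_upwards [out hc hs hT hj hy h] with w hw
  refine indicator_apply_eq_zero.2 fun e => ?_
  rw [G'_zero (by linarith [hw e]), Complex.ofReal_zero, zero_mul]

theorem dat (jb : JB) (hc : 0 < c) (hs : Sub C s O) (hT : Tb s O Ω t₀ R) (hj : Gj W j)
    (hl : 0 < l) (hμ : 0 ≤ μ) (hP : Differentiable ℂ Pf) :
    Dat C s O (ps W j l μ) (gc W j Pf) (La W j l Pf) := by
  have h1 : ∀ y ∈ O, Gd C s (ps W j l μ) y := fun y hy =>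
    ((gd_Fm jb hc hs hT hj hy).const_mul hl.le).add (gd_Fr jb hs hμ hy)
  have h2 : ∀ γ a, ∀ z ∈ C.B 4 a, C.pt γ a z ∈ O →
      AnalyticAt ℂ (fun w => Pf (s (C.pt γ a w))) z := fun γ a z hz hy =>
    (P268.analyticAt_of_differentiableOn isOpen_univ hP.differentiableOn (mem_univ _)).comp
      (f := fun w => s (C.pt γ a w)) (hs.hol γ a z hz hy)
  refine ⟨fun y hy => (h1 y hy).sm, fun y hy => (h1 y hy).fb, ⟨rh j, rh_pos j, fun γ a z hz hy =>
    ?_⟩, fun y hy γ a z hz e => ?_, fun y hy => ?_, fun y _ => indicator_nonneg (fun y _ =>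
      div_nonneg (mul_nonneg (G''_nonneg _) (sq_nonneg _)) hl.le) y, fun γ a z hz hy => ?_⟩
  · have h3 := (((gd_Fm jb hc hs hT hj hy).const_mul hl.le).add
      ((gd_Fq (W := W) (j := j) hs hy).const_mul hμ)).sp γ a z hz rfl
    have h4 := ((gd_comp jb hs hy (sp_nsq jb t₀ _)).sp γ a z hz rfl).sm
    have h5 := C2.cHess_add (two h3.sm) (two ((contDiffAt_const (c := rh j)).mul h4))
    rw [C2.cHess_const_mul _ (two h4), hess_nsq jb (hs.hol γ a z hz hy)] at h5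
    refine (congrArg Matrix.PosSemidef ?_).mp h3.psd
    rw [eq_sub_of_add_eq h5.symm]
    simp only [add_assoc]
    rfl
  · subst e
    by_cases h : C.pt γ a z ∈ In W
    · exact ((C2.contDiffAt_ofReal (G'_sm.contDiffAt.comp z (((gd_Fi jb hc hs hy).sm γ a z hz
        rfl).sub ((gd_Fw hs hy).sm γ a z hz rfl)))).mul
        (an_sm (h2 γ a z hz hy))).congr_of_eventuallyEq (ev_ch hz rfl (gc_in hs hT h))
    · exact contDiffAt_const.congr_of_eventuallyEq (ev_ch hz rfl (gc_out hc hs hT hj hy h))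
  · by_cases h : y ∈ In W
    · exact Fb.congr ((((gd_Fi jb hc hs hy).fb.map₂ (gd_Fw hs hy).fb fun t t' =>
        ((deriv G (t - t') : ℝ) : ℂ))).map₂ (fb_comp Pf) (· * ·)) (gc_in hs hT h)
    · exact Fb.congr (fb_comp fun _ => 0) (gc_out hc hs hT hj hy h)
  · by_cases h : C.pt γ a z ∈ In W
    · refine (congrArg Matrix.PosSemidef ?_).mp (key hl ((gd_Fw (W := W) (j := j) hs hy).sp γ a z
        hz rfl) ((gd_Fi (W := W) (j := j) jb hc hs hy).sp γ a z hz rfl)
        ((gd_Fr (W := W) (j := j) jb hs hμ hy).sp γ a z hz rfl) (h2 γ a z hz hy))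
      have e1 : ∀ k, dzb k (fun w => gc W j Pf (C.pt γ a w)) z = _ := fun k =>
        C2.dzb_congr k (ev_ch hz rfl (gc_in hs hT h))
      have e2 : L.hs C (ps W j l μ) γ a z = cHess (fun w => l * (Fw W j (C.pt γ a w) +
          G (Fi W j (C.pt γ a w) - Fw W j (C.pt γ a w))) + Fr W j μ (C.pt γ a w)) z :=
        C2.cHess_congr ((ev_ch hz rfl ((in_open hs hT).mem_nhds h)).mono fun w hw => by
          simp only [ps, Fm, gl_of_mem (O := In W) hw])
      simp only [bb, e1, e2, La, indicator_of_mem h]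
    · have e1 : ∀ k, dzb k (fun w => gc W j Pf (C.pt γ a w)) z = 0 := fun k =>
        (C2.dzb_congr k (g := fun _ => 0) (ev_ch hz rfl (gc_out hc hs hT hj hy h))).trans
          (C2.dzb_const k 0)
      refine (congrArg Matrix.PosSemidef ?_).mp Matrix.PosSemidef.zero
      ext i k
      simp [bb, e1, La, indicator_of_notMem h]

end Vale.Agent.P284Z.L.S7a
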